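import Vale.Agent.P256.Cubic.Family

namespace Vale.Agent.Results.P256.CubicShadow

open Matrix

/-- A trilinear form on `ℝ^n`; the cubic form is `x ↦ T x x x`. -/
abbrev TriForm (n : ℕ) := (Fin n → ℝ) →ₗ[ℝ] (Fin n → ℝ) →ₗ[ℝ] (Fin n → ℝ) →ₗ[ℝ] ℝ
/-- A bilinear form on `ℝ^n`; the quadratic form is `x ↦ B x x`. -/
abbrev BilForm (n : ℕ) := (Fin n → ℝ) →ₗ[ℝ] (Fin n → ℝ) →ₗ[ℝ] ℝ

/-- The value `T(x,y,z)`. -/
def tev {n : ℕ} (T : TriForm n) (x y z : Fin n → ℝ) : ℝ := T x y z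

/-- The value `B(x,y)`. -/
def bev {n : ℕ} (B : BilForm n) (x y : Fin n → ℝ) : ℝ := B x y

/-- The value of the linear form `t` at `x`. -/
def lev {n : ℕ} (t : (Fin n → ℝ) →ₗ[ℝ] ℝ) (x : Fin n → ℝ) : ℝ := t x

/-- `T` is symmetric in its three arguments. -/
def IsSymm3 {n : ℕ} (T : TriForm n) : Prop :=
  (∀ x y z, tev T x y z = tev T y x z) ∧ ∀ x y z, tev T x y z = tev T x z y

/-- `B` is symmetric. -/
def IsSymm2 {n : ℕ} (B : BilForm n) : Prop := ∀ x y, bev B x y = bev B y x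

/-- The polynomial `z ↦ T(ze-x, ze-x, ze-x)`, expanded by trilinearity. -/
noncomputable def linePoly {n : ℕ} (T : TriForm n) (e x : Fin n → ℝ) (z : ℂ) : ℂ :=
  (tev T e e e : ℂ) * z ^ 3 - 3 * (tev T e e x : ℂ) * z ^ 2 + 3 * (tev T e x x : ℂ) * z
    - (tev T x x x : ℂ)

/-- The cubic `p(x) = T x x x` is hyperbolic with respect to `e`: `p e > 0` and all complex roots
of `z ↦ p (z e - x)`, expanded by trilinearity, are real. -/
def IsHyperbolicCubic {n : ℕ} (T : TriForm n) (e : Fin n → ℝ) : Prop :=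
  0 < tev T e e e ∧ ∀ (x : Fin n → ℝ) (z : ℂ), linePoly T e x z = 0 → z.im = 0

/-- The closed hyperbolicity cone. -/
def hypCone {n : ℕ} (T : TriForm n) (e : Fin n → ℝ) : Set (Fin n → ℝ) :=
  {x | ∀ s : ℝ, tev T (s • e - x) (s • e - x) (s • e - x) = 0 → 0 ≤ s}

/-- A linear image of a spectrahedron. -/
def IsSpectrahedralShadow {n : ℕ} (K : Set (Fin n → ℝ)) : Prop :=
  ∃ (k a : ℕ) (A0 : Matrix (Fin k) (Fin k) ℝ) (A : Fin n → Matrix (Fin k) (Fin k) ℝ)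
    (B : Fin a → Matrix (Fin k) (Fin k) ℝ),
    A0.IsSymm ∧ (∀ i, (A i).IsSymm) ∧ (∀ j, (B j).IsSymm) ∧
      K = {x | ∃ u : Fin a → ℝ, (A0 + ∑ i, x i • A i + ∑ j, u j • B j).PosSemidef}

/-- `t > 0` on the cone `{T e y y ≥ 0, T e e y ≥ 0}` away from `0`. -/
def IsPosOnCone {n : ℕ} (T : TriForm n) (e : Fin n → ℝ) (t : (Fin n → ℝ) →ₗ[ℝ] ℝ) : Prop :=
  ∀ y, y ≠ 0 → 0 ≤ tev T e y y → 0 ≤ tev T e e y → 0 < lev t y

/-- `-t P` is a sum of squares of the quadratic forms `H i`, plus `T e y y` times `R`. -/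
def IsSOSCert {n m : ℕ} (T : TriForm n) (e : Fin n → ℝ) (P : TriForm n)
    (t : (Fin n → ℝ) →ₗ[ℝ] ℝ) (H : Fin m → BilForm n) (R : BilForm n) : Prop :=
  ∀ y, -(lev t y * tev P y y y) = ∑ i, bev (H i) y y ^ 2 + tev T e y y * bev R y y

/-- The cubic splits as a finite sum of cubics `P j`, each of which, times a linear form `t j`
positive on the cone `{T e y y ≥ 0, T e e y ≥ 0}` away from `0`, is minus a sum of squares of
quadratic forms modulo the quadric `T e y y` (`= D_e p / 3`). -/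
def IsSOSSplit {n : ℕ} (T : TriForm n) (e : Fin n → ℝ) : Prop :=
  ∃ (k m : ℕ) (P : Fin k → TriForm n) (t : Fin k → (Fin n → ℝ) →ₗ[ℝ] ℝ)
    (H : Fin k → Fin m → BilForm n) (R : Fin k → BilForm n),
    (∀ j, IsSymm3 (P j)) ∧ (∀ j i, IsSymm2 (H j i)) ∧ (∀ j, IsPosOnCone T e (t j)) ∧
    (∀ j, IsSOSCert T e (P j) (t j) (H j) (R j)) ∧
    ∀ y, ∑ j, tev (P j) y y y = tev T y y y

/-- The flattening of `S` has operator norm at most `1`. -/
def IsFlat {n : ℕ} (S : TriForm n) : Prop :=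
  ∀ u : Fin n → ℝ, ∑ j, ∑ l, tev S u (Pi.single j 1) (Pi.single l 1) ^ 2 ≤ ∑ i, u i ^ 2

/-- The cubic `x₀³ - 3 x₀ |z|² + 2 S(z,z,z)`, where `z` is the tail of `x`. -/
noncomputable def famCubic {n : ℕ} (S : TriForm n) (x : Fin (n + 1) → ℝ) : ℝ :=
  x 0 ^ 3 - 3 * x 0 * (∑ i : Fin n, x i.succ ^ 2)
    + 2 * tev S (fun i => x i.succ) (fun i => x i.succ) (fun i => x i.succ)

/-- The direction `(1,0,…,0)`. -/
def axis (n : ℕ) : Fin (n + 1) → ℝ := Pi.single 0 1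

/-- A trilinear `T` whose cubic is `famCubic S`, hyperbolic, with cone a spectrahedral shadow. -/
def FamilyConclusion {n : ℕ} (S : TriForm n) : Prop :=
  ∃ T : TriForm (n + 1), IsSymm3 T ∧ (∀ x, tev T x x x = famCubic S x) ∧
    IsHyperbolicCubic T (axis n) ∧ IsSpectrahedralShadow (hypCone T (axis n))

/-- Some `S` with `S(z,z,z) = z_1^3` satisfies the hypotheses of the family. -/
def HasSingularExample (n : ℕ) : Prop :=
  ∃ S : TriForm (n + 1), IsSymm3 S ∧ IsFlat S ∧ ∀ z, tev S z z z = z 0 ^ 3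

theorem result :
    (∀ (n : ℕ) (T : TriForm n) (e : Fin n → ℝ), IsSymm3 T → IsHyperbolicCubic T e →
      IsSOSSplit T e → IsSpectrahedralShadow (hypCone T e)) ∧
    (∀ (n : ℕ) (S : TriForm n), IsSymm3 S → IsFlat S → FamilyConclusion S) ∧
    ∀ n : ℕ, HasSingularExample n := by
  have general : ∀ (n : ℕ) (T : TriForm n) (e : Fin n → ℝ), IsSymm3 T → IsHyperbolicCubic T e →
      IsSOSSplit T e → IsSpectrahedralShadow (hypCone T e) := by
    rintro n T e hT hh ⟨k, m, P, t, H, R, hP, hH, htpos, hid, hsum⟩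
    have ha : ∀ j, P256.Cubic.Atom (T e) e (P j) (t j) (H j) (R j) := fun j =>
      ⟨⟨(hP j).1, (hP j).2⟩, hH j, fun y hy hc => htpos j y hy hc.1 hc.2, hid j⟩
    obtain ⟨k', a, A0, A, B, h0, h1, h2, h3⟩ :=
      P256.Cubic.shadow_of_isLMI (P256.Cubic.isLMI_feas (T e) t H R)
    exact ⟨k', a, A0, A, B, h0, h1, h2,
      (P256.Cubic.main T e P t H R ⟨hT.1, hT.2⟩ hh ha hsum).trans h3⟩
  refine ⟨general, fun n S hS hflat => ?_, fun n =>
    ⟨(LinearMap.proj 0).smulRight ((LinearMap.proj 0).smulRight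
      (LinearMap.proj 0 : (Fin (n + 1) → ℝ) →ₗ[ℝ] ℝ)), ⟨?_, ?_⟩, fun u => ?_, fun z => ?_⟩⟩
  rotate_left
  · intro x y z; simp only [tev, LinearMap.smulRight_apply, LinearMap.proj_apply, smul_eq_mul, LinearMap.smul_apply]; ring
  · intro x y z; simp only [tev, LinearMap.smulRight_apply, LinearMap.proj_apply, smul_eq_mul, LinearMap.smul_apply]; ring
  · rw [Finset.sum_eq_single 0 (fun j _ hj => by simp [tev, hj.symm]) (by simp),
      Finset.sum_eq_single 0 (fun j _ hj => by simp [tev, hj.symm]) (by simp)]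
    simpa [tev] using Finset.single_le_sum (fun i _ => sq_nonneg (u i)) (Finset.mem_univ (0 : Fin (n + 1)))
  · simp [tev]; ring
  obtain ⟨hT, hh, H, R, ha⟩ := P256.Cubic.family ⟨hS.1, hS.2⟩ hflat
  refine ⟨P256.Cubic.famT S, ⟨hT.swap12, hT.swap23⟩, fun x => P256.Cubic.famT_cube S x, hh,
    general _ _ _ ⟨hT.swap12, hT.swap23⟩ hh
      ⟨1, n + n * n, fun _ => P256.Cubic.famT S, fun _ => P256.Cubic.hd n, fun _ => H, fun _ => R,
        fun _ => ⟨hT.swap12, hT.swap23⟩, fun _ => ha.symH, fun _ y hy h1 h2 => ha.tpos y hy ⟨h1, h2⟩,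
        fun _ => ha.ident, fun y => by simp [tev]⟩⟩

end Vale.Agent.Results.P256.CubicShadow
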