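import Mathlib

namespace Vale.Agent.Results.P256.SchurPencil

open Matrix MvPolynomial Finset

/-- `p` is homogeneous, positive at `e`, and all complex roots of `t ↦ p (t e - x)` are real. -/
def IsHyperbolicWrt {n : ℕ} (p : MvPolynomial (Fin n) ℝ) (e : Fin n → ℝ) : Prop :=
  (∃ d, p.IsHomogeneous d) ∧ 0 < eval e p ∧
    ∀ (x : Fin n → ℝ) (z : ℂ), aeval (fun i => z * (e i : ℂ) - (x i : ℂ)) p = 0 → z.im = 0

/-- The closed hyperbolicity cone. -/
def hypCone {n : ℕ} (p : MvPolynomial (Fin n) ℝ) (e : Fin n → ℝ) : Set (Fin n → ℝ) :=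
  {x | ∀ t : ℝ, eval (fun i => t * e i - x i) p = 0 → 0 ≤ t}

/-- A linear image of a spectrahedron. -/
def IsSpectrahedralShadow {n : ℕ} (K : Set (Fin n → ℝ)) : Prop :=
  ∃ (k a : ℕ) (A0 : Matrix (Fin k) (Fin k) ℝ) (A : Fin n → Matrix (Fin k) (Fin k) ℝ)
    (B : Fin a → Matrix (Fin k) (Fin k) ℝ),
    A0.IsSymm ∧ (∀ i, (A i).IsSymm) ∧ (∀ j, (B j).IsSymm) ∧
      K = {x | ∃ u : Fin a → ℝ, (A0 + ∑ i, x i • A i + ∑ j, u j • B j).PosSemidef}

/-- The polynomial `det (l(x) A(x) - Phi(x))`. -/
noncomputable def schurPoly {n m : ℕ} (c : Fin n → ℝ) (A : Fin n → Matrix (Fin m) (Fin m) ℝ)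
    (Q : Fin n → Fin n → Matrix (Fin m) (Fin m) ℝ) : MvPolynomial (Fin n) ℝ :=
  Matrix.det (Matrix.of fun r s =>
    (∑ i, MvPolynomial.C (c i) * MvPolynomial.X i) *
      (∑ i, MvPolynomial.C (A i r s) * MvPolynomial.X i) -
      ∑ i, ∑ j, MvPolynomial.C (Q i j r s) * (MvPolynomial.X i * MvPolynomial.X j))

variable {n m : ℕ} (c e : Fin n → ℝ) (A : Fin n → Matrix (Fin m) (Fin m) ℝ)
  (Q : Fin n → Fin n → Matrix (Fin m) (Fin m) ℝ)

def ell (x : Fin n → ℝ) : ℝ := ∑ i, c i * x i
def pen (x : Fin n → ℝ) : Matrix (Fin m) (Fin m) ℝ := ∑ i, x i • A i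
def phi (x : Fin n → ℝ) : Matrix (Fin m) (Fin m) ℝ := ∑ i, ∑ j, (x i * x j) • Q i j
def qf (M : Matrix (Fin m) (Fin m) ℝ) (v : Fin m → ℝ) : ℝ := v ⬝ᵥ (M *ᵥ v)

structure Data : Prop where
  symA : ∀ i, (A i).IsSymm
  symQ : ∀ i j, (Q i j).IsSymm
  swapQ : ∀ i j, Q i j = Q j i
  psdQ : ∀ x, (phi Q x).PosSemidef
  nullQ : ∀ i, ∑ j, e j • Q i j = 0
  pos_c : 0 < ell c e
  pos_A : (pen A e).PosDef

lemma eval_schurPoly (y : Fin n → ℝ) :
    eval y (schurPoly c A Q) = (ell c y • pen A y - phi Q y).det := by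
  rw [schurPoly, RingHom.map_det]
  congr 1
  ext r s
  simp [ell, pen, phi, Matrix.sum_apply, mul_comm, mul_left_comm, Finset.mul_sum]

lemma psd_iff {k : ℕ} (M : Matrix (Fin k) (Fin k) ℝ) :
    M.PosSemidef ↔ M.IsHermitian ∧ ∀ v, 0 ≤ v ⬝ᵥ (M *ᵥ v) := by
  rw [posSemidef_iff_dotProduct_mulVec]
  simp

lemma phi_smul_sub (h : Data c e A Q) (t : ℝ) (x : Fin n → ℝ) :
    phi Q (fun i => t * e i - x i) = phi Q x := by
  have h1 : ∀ i, ∑ j, (t * e j - x j) • Q i j = -∑ j, x j • Q i j := by
    intro i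
    simp only [sub_smul, Finset.sum_sub_distrib, mul_smul, ← Finset.smul_sum, h.nullQ i]
    simp
  have h2 : ∀ j, ∑ i, (t * e i - x i) • Q i j = -∑ i, x i • Q i j := by
    intro j
    have := h1 j
    simpa [h.swapQ] using this
  unfold phi
  calc ∑ i, ∑ j, ((t * e i - x i) * (t * e j - x j)) • Q i j
      = ∑ i, (t * e i - x i) • ∑ j, (t * e j - x j) • Q i j := by
        simp [Finset.smul_sum, mul_smul]
    _ = -∑ j, x j • ∑ i, (t * e i - x i) • Q i j := by
        simp only [h1, smul_neg, Finset.sum_neg_distrib, Finset.smul_sum]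
        rw [Finset.sum_comm]
        simp only [← mul_smul, mul_comm]
    _ = ∑ i, ∑ j, (x i * x j) • Q i j := by
        simp only [h2, smul_neg, Finset.sum_neg_distrib, neg_neg, Finset.smul_sum]
        rw [Finset.sum_comm]
        simp only [← mul_smul, mul_comm]

lemma ell_smul_sub (t : ℝ) (x : Fin n → ℝ) :
    ell c (fun i => t * e i - x i) = t * ell c e - ell c x := by
  simp only [ell, Finset.mul_sum, ← Finset.sum_sub_distrib]
  exact Finset.sum_congr rfl fun i _ => by ring

lemma pen_smul_sub (t : ℝ) (x : Fin n → ℝ) :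
    pen A (fun i => t * e i - x i) = t • pen A e - pen A x := by
  simp only [pen, Finset.smul_sum, ← Finset.sum_sub_distrib, sub_smul, mul_smul]

lemma qf_add (M N : Matrix (Fin m) (Fin m) ℝ) (v) : qf (M + N) v = qf M v + qf N v := by
  simp [qf, Matrix.add_mulVec]
lemma qf_sub (M N : Matrix (Fin m) (Fin m) ℝ) (v) : qf (M - N) v = qf M v - qf N v := by
  simp [qf, Matrix.sub_mulVec]
lemma qf_smul (t : ℝ) (M : Matrix (Fin m) (Fin m) ℝ) (v) : qf (t • M) v = t * qf M v := by
  simp [qf, Matrix.smul_mulVec]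

lemma herm_pen (h : Data c e A Q) (x) : (pen A x).IsHermitian := by
  unfold pen
  ext r s
  simp [Matrix.sum_apply, (h.symA _).apply s r]

lemma herm_phi (h : Data c e A Q) (x) : (phi Q x).IsHermitian := (h.psdQ x).1

/-- The explicit description of the cone. -/
def Good (x : Fin n → ℝ) : Prop :=
  0 ≤ ell c x ∧ ∀ v, 0 ≤ qf (pen A x) v ∧ qf (phi Q x) v ≤ ell c x * qf (pen A x) v

lemma good_mem (h : Data c e A Q) {x} (hx : Good c A Q x) : x ∈ hypCone (schurPoly c A Q) e := by
  intro t ht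
  by_contra hneg
  push Not at hneg
  rw [eval_schurPoly, ell_smul_sub, pen_smul_sub, phi_smul_sub c e A Q h] at ht
  obtain ⟨v, hv, hv0⟩ := (exists_mulVec_eq_zero_iff).2 ht
  have h0 : qf ((t * ell c e - ell c x) • (t • pen A e - pen A x) - phi Q x) v = 0 := by
    simp [qf, hv0]
  rw [qf_sub, qf_smul, qf_sub, qf_smul] at h0
  have ha : 0 < qf (pen A e) v := by simpa [qf] using h.pos_A.dotProduct_mulVec_pos hv
  obtain ⟨hl, hq⟩ := hx
  obtain ⟨h1, h2⟩ := hq v
  nlinarith [mul_pos (mul_pos (neg_pos.2 hneg) (neg_pos.2 hneg)) (mul_pos h.pos_c ha),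
    mul_nonneg (neg_pos.2 hneg).le (mul_nonneg h.pos_c.le h1),
    mul_nonneg (neg_pos.2 hneg).le (mul_nonneg hl ha.le)]

lemma mem_good (h : Data c e A Q) (hm : 0 < m) {x}
    (hx : x ∈ hypCone (schurPoly c A Q) e) : Good c A Q x := by
  let M : ℝ → Matrix (Fin m) (Fin m) ℝ := fun r =>
    (ell c e + r * ell c x) • (pen A e + r • pen A x) - (r * r) • phi Q x
  have hH : ∀ r, (M r).IsHermitian := by
    intro r
    ext i j
    simp only [M, Matrix.conjTranspose_apply, star_trivial, Matrix.sub_apply, Matrix.smul_apply,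
      Matrix.add_apply]
    rw [show pen A e j i = pen A e i j from (herm_pen c e A Q h e).apply i j,
      show pen A x j i = pen A x i j from (herm_pen c e A Q h x).apply i j,
      show phi Q x j i = phi Q x i j from (herm_phi c e A Q h x).apply i j]
  have hne : ∀ r : ℝ, 0 ≤ r → (M r).det ≠ 0 := by
    intro r hr
    rcases hr.eq_or_lt with rfl | hr
    · simp only [M, zero_mul, add_zero, zero_smul, sub_zero, Matrix.det_smul]
      exact mul_ne_zero (pow_ne_zero _ h.pos_c.ne') h.pos_A.det_pos.ne'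
    · intro hd
      have key : (M r) = (r * r) • ((-(1 / r) * ell c e - ell c x) •
          ((-(1 / r)) • pen A e - pen A x) - phi Q x) := by
        ext i j
        simp only [M, Matrix.sub_apply, Matrix.smul_apply, Matrix.add_apply, smul_eq_mul]
        field_simp
        ring
      rw [key, Matrix.det_smul, mul_eq_zero] at hd
      rcases hd with hd | hd
      · exact absurd hd (pow_ne_zero _ (mul_pos hr hr).ne')
      · have := hx (-(1 / r)) (by
          rw [eval_schurPoly, ell_smul_sub, pen_smul_sub, phi_smul_sub c e A Q h]; exact hd)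
        have : (0:ℝ) < 1 / r := by positivity
        linarith
  have hcM : ∀ i j, Continuous fun r => M r i j := by
    intro i j
    simp only [M, Matrix.sub_apply, Matrix.smul_apply, Matrix.add_apply, smul_eq_mul]
    fun_prop
  let S : Set (Fin m → ℝ) := Metric.sphere 0 1
  have hS : IsCompact S := isCompact_sphere _ _
  have hq : Continuous fun rv : ℝ × (Fin m → ℝ) => qf (M rv.1) rv.2 := by
    simp only [qf, dotProduct, Matrix.mulVec]
    fun_prop
  have : CompactSpace S := isCompact_iff_compactSpace.1 hS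
  let Bad : Set ℝ := Prod.fst '' {rv : ℝ × S | qf (M rv.1) rv.2 ≤ 0}
  have hBad : IsClosed Bad :=
    isClosedMap_fst_of_compactSpace _ (isClosed_le
      (hq.comp (continuous_fst.prodMk (continuous_subtype_val.comp continuous_snd)))
      continuous_const)
  let Ok : Set ℝ := {r | ∀ v, 0 ≤ qf (M r) v}
  have hOk : IsClosed Ok := by
    have : Ok = ⋂ v, {r | 0 ≤ qf (M r) v} := by ext r; simp [Ok]
    rw [this]
    exact isClosed_iInter fun v =>
      isClosed_le continuous_const (hq.comp (continuous_id.prodMk continuous_const))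
  have hcover : Set.Ici (0:ℝ) ⊆ Ok ∪ Bad := by
    intro r _
    by_cases hr : r ∈ Bad
    · exact Or.inr hr
    · refine Or.inl fun v => ?_
      by_cases hv : v = 0
      · simp [qf, hv]
      · have hn : 0 < ‖v‖ := norm_pos_iff.2 hv
        have hu : ‖v‖⁻¹ • v ∈ S := by simp [S, norm_smul, hn.ne']
        have : 0 < qf (M r) (‖v‖⁻¹ • v) := by
          by_contra hc
          exact hr ⟨(r, ⟨_, hu⟩), not_lt.1 hc, rfl⟩
        simp only [qf, Matrix.mulVec_smul, dotProduct_smul, smul_dotProduct, smul_eq_mul] at this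
        by_contra hc
        push Not at hc
        have : (0:ℝ) < ‖v‖⁻¹ := inv_pos.2 hn
        simp only [qf] at hc
        nlinarith [mul_pos this this]
  have hdisj : ∀ r, 0 ≤ r → r ∈ Ok → r ∉ Bad := by
    rintro r hr hok ⟨⟨r', v⟩, hv, rfl⟩
    have hp : (M r').PosSemidef := (psd_iff _).2 ⟨hH r', fun v => hok v⟩
    have hpd := hp.posDef_iff_det_ne_zero.2 (hne r' hr)
    have hv0 : (v : Fin m → ℝ) ≠ 0 := by
      intro h0
      simpa [S, h0] using v.2
    have := hpd.dotProduct_mulVec_pos hv0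
    simp only [star_trivial] at this
    exact absurd hv (not_le.2 this)
  have h0 : (0:ℝ) ∈ Ok := by
    intro v
    simp only [M, zero_mul, add_zero, zero_smul, sub_zero, qf_smul]
    exact mul_nonneg h.pos_c.le (by simpa [qf] using h.pos_A.posSemidef.dotProduct_mulVec_nonneg v)
  have hall : Set.Ici (0:ℝ) ⊆ Ok := by
    intro r hr
    by_contra hn
    obtain ⟨s, hs, hs1, hs2⟩ := (isPreconnected_closed_iff.1 isPreconnected_Ici) Ok Bad hOk hBad
      hcover ⟨0, Set.self_mem_Ici, h0⟩ ⟨r, hr, (hcover hr).resolve_left hn⟩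
    exact hdisj s hs hs1 hs2
  have hscaled : ∀ s, 0 < s → ∀ v, qf (phi Q x) v
      ≤ (s * ell c e + ell c x) * (s * qf (pen A e) v + qf (pen A x) v) := by
    intro s hs v
    have := hall (show (0:ℝ) ≤ 1 / s by positivity) v
    simp only [M, qf_sub, qf_smul, qf_add] at this
    have h' : 0 ≤ ((s * ell c e + ell c x) * (s * qf (pen A e) v + qf (pen A x) v)
        - qf (phi Q x) v) / (s * s) := by
      convert this using 1
      field_simp
    rw [le_div_iff₀ (by positivity)] at h'
    linarith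
  have hphi : ∀ v, 0 ≤ qf (phi Q x) v := fun v => by
    simpa [qf] using (h.psdQ x).dotProduct_mulVec_nonneg v
  have hl : 0 ≤ ell c x := by
    by_contra hl
    push Not at hl
    let s := -ell c x / ell c e
    have hs : 0 < s := div_pos (neg_pos.2 hl) h.pos_c
    have hz : s * ell c e + ell c x = 0 := by
      simp only [s, div_mul_cancel₀ _ h.pos_c.ne']; ring
    have hzero : ∀ v, qf (phi Q x) v = 0 := fun v =>
      le_antisymm (by simpa [hz] using hscaled s hs v) (hphi v)
    have hphi0 : phi Q x = 0 := by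
      ext i j
      have hv := ((h.psdQ x).dotProduct_mulVec_zero_iff (Pi.single j 1)).1
        (by simpa [qf] using hzero (Pi.single j 1))
      simpa using congrFun hv i
    have hr : (0:ℝ) < -ell c e / ell c x := div_pos_of_neg_of_neg (neg_neg_of_pos h.pos_c) hl
    apply hne _ hr.le
    have hcoef : ell c e + (-ell c e / ell c x) * ell c x = 0 := by
      rw [div_mul_cancel₀ _ hl.ne]; ring
    have : Nonempty (Fin m) := ⟨⟨0, hm⟩⟩
    simp only [M, hphi0, hcoef, zero_smul, smul_zero, sub_zero]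
    exact Matrix.det_zero
  refine ⟨hl, fun v => ⟨?_, ?_⟩⟩
  · by_contra hb
    push Not at hb
    have ha : 0 ≤ qf (pen A e) v := by
      simpa [qf] using h.pos_A.posSemidef.dotProduct_mulVec_nonneg v
    let s := -qf (pen A x) v / (2 * (qf (pen A e) v + 1))
    have hs : 0 < s := div_pos (neg_pos.2 hb) (by linarith)
    have hsa : s * qf (pen A e) v + qf (pen A x) v < 0 := by
      have : s * (2 * (qf (pen A e) v + 1)) = -qf (pen A x) v :=
        div_mul_cancel₀ _ (by linarith)
      nlinarith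
    have := hscaled s hs v
    nlinarith [hphi v, mul_pos hs h.pos_c,
      mul_neg_of_pos_of_neg (show 0 < s * ell c e + ell c x by nlinarith [mul_pos hs h.pos_c]) hsa]
  · have hc : Continuous fun s : ℝ =>
        (s * ell c e + ell c x) * (s * qf (pen A e) v + qf (pen A x) v) := by fun_prop
    have := le_of_tendsto_of_tendsto (b := nhdsWithin (0:ℝ) (Set.Ioi 0))
      (f := fun _ => qf (phi Q x) v) tendsto_const_nhds
      ((hc.tendsto 0).mono_left nhdsWithin_le_nhds)
      (eventually_nhdsWithin_of_forall fun s hs => hscaled s hs v)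
    simpa using this

lemma good_iff (h : Data c e A Q) (hm : 0 < m) (x) :
    x ∈ hypCone (schurPoly c A Q) e ↔ Good c A Q x :=
  ⟨mem_good c e A Q h hm, good_mem c e A Q h⟩

lemma qf_re {M : Matrix (Fin m) (Fin m) ℝ} (hM : M.IsHermitian) (v : Fin m → ℂ) :
    star v ⬝ᵥ (M.map (fun r : ℝ => (r : ℂ)) *ᵥ v)
      = ((qf M (fun i => (v i).re) + qf M (fun i => (v i).im) : ℝ) : ℂ) := by
  apply Complex.ext
  · simp [qf, dotProduct, Matrix.mulVec, Finset.mul_sum, ← Finset.sum_add_distrib]
  · simp only [dotProduct, Matrix.mulVec, Matrix.map_apply, Pi.star_apply, Complex.star_def,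
      Finset.mul_sum, Complex.im_sum, Complex.mul_im, Complex.mul_re, Complex.conj_re,
      Complex.conj_im, Complex.ofReal_re, Complex.ofReal_im, zero_mul, add_zero, sub_zero]
    have : ∀ i j, M j i = M i j := fun i j => hM.apply i j
    simp only [neg_mul, Finset.sum_add_distrib, Finset.sum_neg_distrib]
    conv_lhs => arg 2; rw [Finset.sum_comm]
    rw [← Finset.sum_neg_distrib, ← Finset.sum_add_distrib]
    refine Finset.sum_eq_zero fun i _ => ?_
    rw [← Finset.sum_neg_distrib, ← Finset.sum_add_distrib]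
    refine Finset.sum_eq_zero fun j _ => ?_
    rw [this i j]; ring

lemma real_rooted (h : Data c e A Q) (x : Fin n → ℝ) (z : ℂ)
    (hz : aeval (fun i => z * (e i : ℂ) - (x i : ℂ)) (schurPoly c A Q) = 0) : z.im = 0 := by
  let L : Matrix (Fin m) (Fin m) ℂ :=
    (z * (ell c e : ℂ) - (ell c x : ℂ)) • (z • (pen A e).map (fun r : ℝ => (r : ℂ))
      - (pen A x).map (fun r : ℝ => (r : ℂ))) - (phi Q x).map (fun r : ℝ => (r : ℂ))
  have hL : L.det = 0 := by
    rw [← hz, schurPoly, AlgHom.map_det]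
    congr 1
    ext r s
    have hx : ∀ i, ∑ j, (Q i j r s : ℂ) * (e j : ℂ) = 0 := by
      intro i
      have := congrFun (congrFun (h.nullQ i) r) s
      simp only [Matrix.sum_apply, Matrix.smul_apply, smul_eq_mul, Matrix.zero_apply] at this
      rw [← Complex.ofReal_zero, ← this]
      push_cast
      exact Finset.sum_congr rfl fun j _ => mul_comm _ _
    have hy : ∀ j, ∑ i, (Q i j r s : ℂ) * (e i : ℂ) = 0 := fun j => by
      simpa [h.swapQ] using hx j
    simp only [L, ell, pen, phi, AlgHom.mapMatrix_apply, Matrix.map_apply, Matrix.of_apply,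
      Matrix.sub_apply, Matrix.smul_apply, Matrix.sum_apply, smul_eq_mul, map_sub, map_mul,
      map_sum, aeval_C, aeval_X, Complex.coe_algebraMap, Complex.ofReal_sum, Complex.ofReal_mul]
    have e1 : ∑ i, (c i : ℂ) * (z * (e i : ℂ) - (x i : ℂ))
        = z * ∑ i, (c i : ℂ) * (e i : ℂ) - ∑ i, (c i : ℂ) * (x i : ℂ) := by
      rw [Finset.mul_sum, ← Finset.sum_sub_distrib]
      exact Finset.sum_congr rfl fun i _ => by ring
    have e2 : ∑ i, (A i r s : ℂ) * (z * (e i : ℂ) - (x i : ℂ))
        = z * (∑ i, (e i : ℂ) * (A i r s : ℂ)) - ∑ i, (x i : ℂ) * (A i r s : ℂ) := by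
      rw [Finset.mul_sum, ← Finset.sum_sub_distrib]
      exact Finset.sum_congr rfl fun i _ => by ring
    have e3 : ∑ i, ∑ j, (Q i j r s : ℂ) * ((z * (e i : ℂ) - (x i : ℂ)) * (z * (e j : ℂ) - (x j : ℂ)))
        = ∑ i, ∑ j, (x i : ℂ) * (x j : ℂ) * (Q i j r s : ℂ) := by
      have : ∀ i, ∑ j, (Q i j r s : ℂ) * ((z * (e i : ℂ) - (x i : ℂ)) * (z * (e j : ℂ) - (x j : ℂ)))
          = ∑ j, (x i : ℂ) * (x j : ℂ) * (Q i j r s : ℂ)
            - z * (∑ j, (x j : ℂ) * ((Q i j r s : ℂ) * (e i : ℂ))) := by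
        intro i
        have h0 : (z * (z * (e i : ℂ)) - z * (x i : ℂ)) * ∑ j, (Q i j r s : ℂ) * (e j : ℂ) = 0 := by
          rw [hx i, mul_zero]
        rw [Finset.mul_sum] at h0
        rw [Finset.mul_sum, ← Finset.sum_sub_distrib, ← sub_eq_zero, ← Finset.sum_sub_distrib,
          ← h0]
        exact Finset.sum_congr rfl fun j _ => by ring
      simp only [this, Finset.sum_sub_distrib, ← Finset.mul_sum]
      rw [Finset.sum_comm (f := fun i j => (x j : ℂ) * ((Q i j r s : ℂ) * (e i : ℂ)))]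
      simp only [← Finset.mul_sum, hy, mul_zero, Finset.sum_const_zero, sub_zero]
    rw [e1, e2, e3]
  obtain ⟨v, hv, hv0⟩ := (exists_mulVec_eq_zero_iff).2 hL
  have h0 : star v ⬝ᵥ (L *ᵥ v) = 0 := by simp [hv0]
  simp only [L, Matrix.sub_mulVec, Matrix.smul_mulVec, dotProduct_sub, dotProduct_smul,
    qf_re (herm_pen c e A Q h e), qf_re (herm_pen c e A Q h x), qf_re (herm_phi c e A Q h x),
    smul_eq_mul] at h0
  let a := qf (pen A e) (fun i => (v i).re) + qf (pen A e) (fun i => (v i).im)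
  let b := qf (pen A x) (fun i => (v i).re) + qf (pen A x) (fun i => (v i).im)
  let g := qf (phi Q x) (fun i => (v i).re) + qf (phi Q x) (fun i => (v i).im)
  have ha : 0 < a := by
    have hpe := h.pos_A
    by_cases hr : (fun i => (v i).re) = 0
    · have hi : (fun i => (v i).im) ≠ 0 := by
        intro hi
        exact hv (funext fun i => Complex.ext (congrFun hr i) (congrFun hi i))
      have h1 := hpe.dotProduct_mulVec_pos hi
      simp only [star_trivial] at h1
      simpa [a, qf, hr] using h1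
    · have h1 := hpe.dotProduct_mulVec_pos hr
      have h2 := hpe.posSemidef.dotProduct_mulVec_nonneg (fun i => (v i).im)
      simp only [star_trivial] at h1 h2
      simp only [a, qf]; linarith
  have hg : 0 ≤ g := by
    have h1 := (h.psdQ x).dotProduct_mulVec_nonneg (fun i => (v i).re)
    have h2 := (h.psdQ x).dotProduct_mulVec_nonneg (fun i => (v i).im)
    simp only [star_trivial] at h1 h2
    simp only [g, qf]; linarith
  have hre := congrArg Complex.re h0
  have him := congrArg Complex.im h0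
  simp only [Complex.sub_re, Complex.sub_im, Complex.mul_re, Complex.mul_im, Complex.ofReal_re,
    Complex.ofReal_im, Complex.zero_re, Complex.zero_im, mul_zero, zero_mul, sub_zero, add_zero,
    zero_add] at hre him
  by_contra hy
  have hlin : 2 * (ell c e * a) * z.re = ell c e * b + ell c x * a := by
    apply mul_left_cancel₀ hy
    simp only [a, b]
    linarith
  have hre' : ell c e * a * (z.re * z.re - z.im * z.im) - z.re * (ell c e * b + ell c x * a)
      + ell c x * b - g = 0 := by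
    simp only [a, b, g]
    linarith
  have hk : 0 < ell c e * a := mul_pos h.pos_c ha
  nlinarith [sq_nonneg (ell c e * b - ell c x * a),
    mul_pos (mul_pos hk hk) (mul_self_pos.2 hy), mul_nonneg hk.le hg]

lemma homogeneous : (schurPoly c A Q).IsHomogeneous (2 * m) := by
  rw [schurPoly, Matrix.det_apply]
  refine MvPolynomial.IsHomogeneous.sum _ _ _ fun σ _ => ?_
  rw [Units.smul_def, ← Int.cast_smul_eq_zsmul ℝ, MvPolynomial.smul_eq_C_mul]
  refine MvPolynomial.IsHomogeneous.C_mul ?_ _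
  have : (2 * m) = ∑ _i : Fin m, 2 := by simp [mul_comm]
  rw [this]
  refine MvPolynomial.IsHomogeneous.prod _ _ _ fun i _ => ?_
  rw [Matrix.of_apply]
  have h1 : ∀ (w : Fin n → ℝ),
      (∑ i, MvPolynomial.C (w i) * MvPolynomial.X i : MvPolynomial (Fin n) ℝ).IsHomogeneous 1 :=
    fun w => MvPolynomial.IsHomogeneous.sum _ _ _ fun i _ =>
      (MvPolynomial.isHomogeneous_X ℝ i).C_mul _
  refine MvPolynomial.IsHomogeneous.sub ((h1 c).mul (h1 fun i_1 => A i_1 (σ i) i)) ?_
  exact MvPolynomial.IsHomogeneous.sum _ _ _ fun a _ => MvPolynomial.IsHomogeneous.sum _ _ _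
    fun b _ => ((MvPolynomial.isHomogeneous_X ℝ a).mul (MvPolynomial.isHomogeneous_X ℝ b)).C_mul _

lemma hyperbolic (h : Data c e A Q) : IsHyperbolicWrt (schurPoly c A Q) e := by
  refine ⟨⟨_, homogeneous c A Q⟩, ?_, real_rooted c e A Q h⟩
  have h0 : phi Q e = 0 := by
    unfold phi
    refine Finset.sum_eq_zero fun i _ => ?_
    simp only [mul_smul, ← Finset.smul_sum, h.nullQ i, smul_zero]
  rw [eval_schurPoly, h0, sub_zero, Matrix.det_smul]
  exact mul_pos (pow_pos h.pos_c _) h.pos_A.det_pos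

def qmat (v : Fin m → ℝ) : Matrix (Fin n) (Fin n) ℝ := Matrix.of fun i j => qf (Q i j) v

lemma qf_sum {ι : Type*} (t : Finset ι) (M : ι → Matrix (Fin m) (Fin m) ℝ) (v) :
    qf (∑ i ∈ t, M i) v = ∑ i ∈ t, qf (M i) v := by
  simp [qf, Matrix.sum_mulVec, dotProduct_sum]

lemma qf_phi (x : Fin n → ℝ) (v) : qf (phi Q x) v = x ⬝ᵥ (qmat Q v *ᵥ x) := by
  simp only [phi, qf_sum, qf_smul, qmat, dotProduct, Matrix.mulVec, Matrix.of_apply, Finset.mul_sum]
  exact Finset.sum_congr rfl fun i _ => Finset.sum_congr rfl fun j _ => by ring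

lemma qmat_psd (h : Data c e A Q) (v) : (qmat Q v).PosSemidef := by
  refine (psd_iff _).2 ⟨?_, fun x => ?_⟩
  · ext i j; simp [qmat, h.swapQ j i]
  · rw [← qf_phi]
    simpa [qf] using (h.psdQ x).dotProduct_mulVec_nonneg v

def nullMap : (Fin n → ℝ) →ₗ[ℝ] (Fin n → Matrix (Fin m) (Fin m) ℝ) where
  toFun x := fun i => ∑ j, x j • Q i j
  map_add' x y := by ext i : 1; simp [add_smul, Finset.sum_add_distrib]
  map_smul' t x := by ext i : 1; simp [mul_smul, Finset.smul_sum]

lemma exists_proj (h : Data c e A Q) : ∃ P : (Fin n → ℝ) →ₗ[ℝ] (Fin n → ℝ),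
    (∀ x, phi Q (P x) = phi Q x) ∧ ∀ x, (∀ v, qf (phi Q x) v = 0) → P x = 0 := by
  obtain ⟨g₀, hg₀⟩ := (nullMap Q).rangeRestrict.exists_rightInverse_of_surjective
    (LinearMap.range_rangeRestrict _)
  obtain ⟨g, hg⟩ := LinearMap.exists_extend g₀
  have hT : ∀ x, nullMap Q (g (nullMap Q x)) = nullMap Q x := by
    intro x
    have h1 : g (nullMap Q x) = g₀ ((nullMap Q).rangeRestrict x) :=
      (congrArg (fun f => f ((nullMap Q).rangeRestrict x)) hg :)
    rw [h1]
    exact congrArg Subtype.val (congrArg (fun f => f ((nullMap Q).rangeRestrict x)) hg₀ :)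
  refine ⟨g ∘ₗ nullMap Q, fun x => ?_, fun x hx => ?_⟩
  · set y := g (nullMap Q x) with hy
    change phi Q y = phi Q x
    have e1 : ∀ w : Fin n → ℝ, phi Q w = ∑ i, w i • nullMap Q w i := fun w => by
      simp [phi, nullMap, Finset.smul_sum, mul_smul]
    have e2 : ∀ w w' : Fin n → ℝ, ∑ i, w i • nullMap Q w' i = ∑ i, w' i • nullMap Q w i := by
      intro w w'
      simp only [nullMap, LinearMap.coe_mk, AddHom.coe_mk, Finset.smul_sum, ← mul_smul]
      rw [Finset.sum_comm]
      exact Finset.sum_congr rfl fun i _ => Finset.sum_congr rfl fun j _ => by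
        rw [h.swapQ j i, mul_comm]
    rw [e1, e1, hT x, e2, hT x]
  · have : nullMap Q x = 0 := by
      funext i
      have hz : ∀ v, qf (∑ j, x j • Q i j) v = 0 := by
        intro v
        have := ((qmat_psd c e A Q h v).dotProduct_mulVec_zero_iff x).1
          (by simpa [← qf_phi] using hx v)
        have h2 := congrFun this i
        simp only [Matrix.mulVec, dotProduct, qmat, Matrix.of_apply, Pi.zero_apply] at h2
        simp only [qf_sum, qf_smul, ← h2]
        exact Finset.sum_congr rfl fun j _ => mul_comm _ _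
      have hpsd : (∑ j, x j • Q i j).PosSemidef := by
        refine (psd_iff _).2 ⟨?_, fun v => (hz v).ge⟩
        ext r t
        simp [Matrix.sum_apply, (h.symQ i _).apply t r]
      have hzero := fun r => (hpsd.dotProduct_mulVec_zero_iff (Pi.single r 1)).1
        (by simpa [qf] using hz (Pi.single r 1))
      show ∑ j, x j • Q i j = 0
      ext r t
      simpa using congrFun (hzero t) r
    simp [this]

/-- The semidefinite lift. -/
noncomputable def lift (P : (Fin n → ℝ) →ₗ[ℝ] (Fin n → ℝ)) (x : Fin n → ℝ)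
    (Y : Matrix (Fin n) (Fin n) ℝ) : Matrix ((Unit ⊕ Fin n) ⊕ Fin m) ((Unit ⊕ Fin n) ⊕ Fin m) ℝ :=
  Matrix.fromBlocks
    (Matrix.fromBlocks (ell c x • 1) (Matrix.of fun _ j => P x j) (Matrix.of fun i _ => P x i)
      (Y + Yᵀ))
    0 0 (pen A x - ∑ i, ∑ j, (Y + Yᵀ) i j • Q i j)

lemma lift_herm (h : Data c e A Q) (P : (Fin n → ℝ) →ₗ[ℝ] (Fin n → ℝ)) (x Y) :
    (lift c A Q P x Y).IsHermitian := by
  refine Matrix.IsHermitian.fromBlocks (Matrix.IsHermitian.fromBlocks ?_ ?_ ?_) (by simp) ?_
  · simp [Matrix.IsHermitian]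
  · ext i j; simp
  · ext i j; simp [add_comm]
  · refine (herm_pen c e A Q h x).sub ?_
    ext r t
    simp [Matrix.sum_apply, (h.symQ _ _).apply t r]

lemma lift_qf (P : (Fin n → ℝ) →ₗ[ℝ] (Fin n → ℝ)) (x Y) (w : (Unit ⊕ Fin n) ⊕ Fin m → ℝ) :
    w ⬝ᵥ (lift c A Q P x Y *ᵥ w) =
      ell c x * (w (.inl (.inl ())) * w (.inl (.inl ())))
      + 2 * w (.inl (.inl ())) * (P x ⬝ᵥ fun i => w (.inl (.inr i)))
      + (fun i => w (.inl (.inr i))) ⬝ᵥ ((Y + Yᵀ) *ᵥ fun i => w (.inl (.inr i)))
      + qf (pen A x - ∑ i, ∑ j, (Y + Yᵀ) i j • Q i j) (fun r => w (.inr r)) := by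
  simp only [lift, qf, dotProduct, Matrix.mulVec, Fintype.sum_sum_type, Matrix.fromBlocks_apply₁₁,
    Matrix.fromBlocks_apply₁₂, Matrix.fromBlocks_apply₂₁, Matrix.fromBlocks_apply₂₂,
    Matrix.zero_apply, Matrix.smul_apply, Matrix.of_apply, Fintype.univ_unit,
    Finset.sum_singleton, PUnit.default_eq_unit, zero_mul, Finset.sum_const_zero, zero_add,
    add_zero, smul_eq_mul, Matrix.one_apply_eq]
  simp only [mul_add, Finset.sum_add_distrib, Finset.mul_sum]
  ring_nf
  have : ∀ (a : ℝ) (f g : Fin n → ℝ),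
      ∑ i, a * f i * g i + ∑ i, a * g i * f i = ∑ i, a * f i * g i * 2 := fun a f g => by
    rw [← Finset.sum_add_distrib]
    exact Finset.sum_congr rfl fun i _ => by ring
  linarith [this (w (.inl (.inl ()))) (P x) (fun i => w (.inl (.inr i)))]

lemma good_shadow (h : Data c e A Q) (P : (Fin n → ℝ) →ₗ[ℝ] (Fin n → ℝ))
    (hP : ∀ x, phi Q (P x) = phi Q x) (hP0 : ∀ x, (∀ v, qf (phi Q x) v = 0) → P x = 0) (x) :
    Good c A Q x ↔ ∃ Y, (lift c A Q P x Y).PosSemidef := by
  constructor
  · rintro ⟨hl, hx⟩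
    refine ⟨Matrix.of fun i j => P x i * P x j / (2 * ell c x), posSemidef_iff_dotProduct_mulVec.2
      ⟨lift_herm c e A Q h P x _, fun w => ?_⟩⟩
    rw [star_trivial, lift_qf]
    have hY : (Matrix.of fun i j => P x i * P x j / (2 * ell c x))
        + (Matrix.of fun i j => P x i * P x j / (2 * ell c x))ᵀ
        = Matrix.of fun i j => P x i * P x j / ell c x := by
      ext i j; simp only [Matrix.add_apply, Matrix.transpose_apply, Matrix.of_apply]; ring
    rw [hY]
    set s := w (.inl (.inl ()))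
    set u := fun i => w (.inl (.inr i))
    set v := fun r => w (.inr r)
    have h1 : u ⬝ᵥ ((Matrix.of fun i j => P x i * P x j / ell c x) *ᵥ u)
        = (P x ⬝ᵥ u) ^ 2 / ell c x := by
      simp only [dotProduct, Matrix.mulVec, Matrix.of_apply]
      rw [pow_two, Finset.sum_mul_sum, Finset.sum_div]
      refine Finset.sum_congr rfl fun i _ => ?_
      rw [Finset.mul_sum, Finset.sum_div]
      exact Finset.sum_congr rfl fun j _ => by ring
    have h2 : qf (∑ i, ∑ j, (Matrix.of fun i j => P x i * P x j / ell c x) i j • Q i j) v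
        = qf (phi Q x) v / ell c x := by
      rw [← hP x]
      simp only [phi, qf_sum, qf_smul, Finset.sum_div, Matrix.of_apply]
      exact Finset.sum_congr rfl fun i _ => Finset.sum_congr rfl fun j _ => by ring
    rw [h1, qf_sub, h2]
    rcases hl.eq_or_lt with hl0 | hl0
    · have hz : P x = 0 := hP0 x fun v => le_antisymm (by simpa [← hl0] using (hx v).2)
        (by simpa [qf] using (h.psdQ x).dotProduct_mulVec_nonneg v)
      simp [hz, ← hl0, (hx v).1]
    · have h3 : qf (phi Q x) v / ell c x ≤ qf (pen A x) v := by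
        rw [div_le_iff₀ hl0]; linarith [(hx v).2]
      have h4 : 0 ≤ (ell c x * s + P x ⬝ᵥ u) ^ 2 / ell c x := by positivity
      have h5 : (ell c x * s + P x ⬝ᵥ u) ^ 2 / ell c x
          = ell c x * (s * s) + 2 * s * (P x ⬝ᵥ u) + (P x ⬝ᵥ u) ^ 2 / ell c x := by
        field_simp; ring
      linarith
  · rintro ⟨Y, hY⟩
    have key : ∀ (s : ℝ) (u : Fin n → ℝ) (v : Fin m → ℝ),
        0 ≤ ell c x * (s * s) + 2 * s * (P x ⬝ᵥ u) + u ⬝ᵥ ((Y + Yᵀ) *ᵥ u)
          + qf (pen A x - ∑ i, ∑ j, (Y + Yᵀ) i j • Q i j) v := by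
      intro s u v
      have := hY.dotProduct_mulVec_nonneg (Sum.elim (Sum.elim (fun _ => s) u) v)
      rw [star_trivial, lift_qf] at this
      simpa using this
    have hl : 0 ≤ ell c x := by simpa [qf] using key 1 0 0
    let Z : Matrix (Fin n) (Fin n) ℝ :=
      Matrix.of fun i j => (Y + Yᵀ) i j - P x i * P x j / ell c x
    have hz0 : ell c x = 0 → P x = 0 := by
      intro h0
      by_contra hne
      have hp : 0 < P x ⬝ᵥ P x := by
        have := dotProduct_star_self_pos_iff.2 hne
        simpa using this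
      have := key (-((P x) ⬝ᵥ ((Y + Yᵀ) *ᵥ P x) + 1) / (2 * (P x ⬝ᵥ P x))) (P x) 0
      simp only [h0, zero_mul, zero_add, qf, Matrix.mulVec_zero, dotProduct_zero, add_zero] at this
      field_simp at this
      linarith
    have hZ : Z.PosSemidef := by
      refine (psd_iff _).2 ⟨?_, fun u => ?_⟩
      · ext i j; simp only [Z, Matrix.conjTranspose_apply, Matrix.of_apply, star_trivial,
          Matrix.add_apply, Matrix.transpose_apply]; ring
      · have := key (-(P x ⬝ᵥ u) / ell c x) u 0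
        have h1 : u ⬝ᵥ (Z *ᵥ u) = u ⬝ᵥ ((Y + Yᵀ) *ᵥ u) - (P x ⬝ᵥ u) ^ 2 / ell c x := by
          simp only [Z, dotProduct, Matrix.mulVec, Matrix.of_apply]
          rw [pow_two, Finset.sum_mul_sum, Finset.sum_div, ← Finset.sum_sub_distrib]
          refine Finset.sum_congr rfl fun i _ => ?_
          rw [Finset.mul_sum, Finset.mul_sum, Finset.sum_div, ← Finset.sum_sub_distrib]
          exact Finset.sum_congr rfl fun j _ => by ring
        rw [h1]
        rcases hl.eq_or_lt with hl0 | hl0
        · have h2 := key 0 u 0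
          simp [hz0 hl0.symm, qf] at h2 ⊢
          linarith
        · simp only [qf, Matrix.mulVec_zero, dotProduct_zero, add_zero] at this
          have h3 : ell c x * (-(P x ⬝ᵥ u) / ell c x * (-(P x ⬝ᵥ u) / ell c x))
              + 2 * (-(P x ⬝ᵥ u) / ell c x) * (P x ⬝ᵥ u) = -((P x ⬝ᵥ u) ^ 2 / ell c x) := by
            field_simp; ring
          linarith
    refine ⟨hl, fun v => ?_⟩
    have hA : qf (∑ i, ∑ j, (Y + Yᵀ) i j • Q i j) v ≤ qf (pen A x) v := by
      have := key 0 0 v
      simp [qf_sub] at this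
      simpa [sub_nonneg] using this
    have hH := (hZ.hadamard (qmat_psd c e A Q h v)).dotProduct_mulVec_nonneg (fun _ => (1:ℝ))
    have hZQ : qf (phi Q x) v / ell c x ≤ qf (∑ i, ∑ j, (Y + Yᵀ) i j • Q i j) v := by
      rw [← sub_nonneg, ← hP x]
      simp only [star_trivial, dotProduct, Matrix.mulVec, Matrix.hadamard_apply, one_mul, mul_one,
        Z, qmat, Matrix.of_apply] at hH
      simp only [phi, qf_sum, qf_smul, Finset.sum_div, ← Finset.sum_sub_distrib]
      refine hH.trans (le_of_eq ?_)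
      exact Finset.sum_congr rfl fun i _ => Finset.sum_congr rfl fun j _ => by ring
    have hp : 0 ≤ qf (phi Q x) v := by simpa [qf] using (h.psdQ x).dotProduct_mulVec_nonneg v
    have hdiv : 0 ≤ qf (phi Q x) v / ell c x := div_nonneg hp hl
    refine ⟨le_trans hdiv (hZQ.trans hA), ?_⟩
    rcases hl.eq_or_lt with hl0 | hl0
    · rw [← hP x, hz0 hl0.symm, ← hl0]
      simp [phi, qf]
    · have := (div_le_iff₀ hl0).1 (hZQ.trans hA)
      linarith

lemma shadow (h : Data c e A Q) (hm : 0 < m) :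
    IsSpectrahedralShadow (hypCone (schurPoly c A Q) e) := by
  obtain ⟨P, hP, hP0⟩ := exists_proj c e A Q h
  let eq := (Fintype.equivFin ((Unit ⊕ Fin n) ⊕ Fin m)).symm
  let yof : (Fin (n * n) → ℝ) → Matrix (Fin n) (Fin n) ℝ :=
    fun u => Matrix.of fun i j => u (finProdFinEquiv (i, j))
  let L : ((Fin n → ℝ) × (Fin (n * n) → ℝ)) →ₗ[ℝ]
      Matrix (Fin (Fintype.card ((Unit ⊕ Fin n) ⊕ Fin m)))
        (Fin (Fintype.card ((Unit ⊕ Fin n) ⊕ Fin m))) ℝ :=
    { toFun := fun xu => (lift c A Q P xu.1 (yof xu.2)).submatrix eq eq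
      map_add' := by
        intro a b
        have : lift c A Q P (a.1 + b.1) (yof (a.2 + b.2))
            = lift c A Q P a.1 (yof a.2) + lift c A Q P b.1 (yof b.2) := by
          have hy : yof (a.2 + b.2) = yof a.2 + yof b.2 := rfl
          unfold lift
          rw [hy, Matrix.fromBlocks_add, Matrix.fromBlocks_add]
          congr 1
          · congr 1
            · simp [ell, mul_add, Finset.sum_add_distrib, add_smul]
            · ext i j; simp
            · ext i j; simp
            · simp [add_add_add_comm]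
          · simp
          · simp
          · simp [pen, add_smul, Finset.sum_add_distrib]; abel
        rw [show (a + b).1 = a.1 + b.1 from rfl, show (a + b).2 = a.2 + b.2 from rfl, this]
        rfl
      map_smul' := by
        intro t a
        have : lift c A Q P (t • a.1) (yof (t • a.2)) = t • lift c A Q P a.1 (yof a.2) := by
          have hy : yof (t • a.2) = t • yof a.2 := rfl
          unfold lift
          rw [hy, Matrix.fromBlocks_smul, Matrix.fromBlocks_smul]
          congr 1
          · congr 1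
            · simp [ell, mul_left_comm, ← Finset.mul_sum, mul_smul]
            · ext i j; simp
            · ext i j; simp
            · simp
          · simp
          · simp
          · simp [pen, mul_smul, Finset.smul_sum, smul_sub, ← mul_add]
        rw [show (t • a).1 = t • a.1 from rfl, show (t • a).2 = t • a.2 from rfl, this]
        rfl }
  refine ⟨_, n * n, 0, fun i => L (Pi.single i 1, 0), fun j => L (0, Pi.single j 1), ?_, ?_, ?_, ?_⟩
  · simp [Matrix.IsSymm]
  · intro i
    have := (lift_herm c e A Q h P (Pi.single i 1) (yof 0)).submatrix eq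
    simpa [Matrix.IsHermitian, Matrix.IsSymm, L] using this
  · intro j
    have := (lift_herm c e A Q h P 0 (yof (Pi.single j 1))).submatrix eq
    simpa [Matrix.IsHermitian, Matrix.IsSymm, L] using this
  · have hsum : ∀ x u, (0 + ∑ i, x i • L (Pi.single i 1, 0) + ∑ j, u j • L (0, Pi.single j 1))
        = L (x, u) := by
      intro x u
      simp only [zero_add, ← map_smul, ← map_sum, ← map_add]
      congr 1
      refine Prod.ext ?_ ?_
      · simp [Prod.fst_sum, ← pi_eq_sum_univ']
      · simp [Prod.snd_sum, ← pi_eq_sum_univ']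
    ext x
    simp only [Set.mem_setOf_eq, hsum]
    rw [good_iff c e A Q h hm, good_shadow c e A Q h P hP hP0]
    constructor
    · rintro ⟨Y, hY⟩
      refine ⟨fun k => Function.uncurry Y (finProdFinEquiv.symm k), ?_⟩
      have : yof (fun k => Function.uncurry Y (finProdFinEquiv.symm k)) = Y := by
        ext i j; simp only [yof, Matrix.of_apply, Equiv.symm_apply_apply]; rfl
      show ((lift c A Q P x (yof _)).submatrix eq eq).PosSemidef
      rw [this]
      exact hY.submatrix eq
    · rintro ⟨u, hu⟩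
      exact ⟨yof u, (posSemidef_submatrix_equiv eq).1 (by simpa [L] using hu)⟩

theorem result (n m : ℕ) (hm : 0 < m) (c e : Fin n → ℝ) (A : Fin n → Matrix (Fin m) (Fin m) ℝ)
    (Q : Fin n → Fin n → Matrix (Fin m) (Fin m) ℝ)
    (symA : ∀ i, (A i).IsSymm) (symQ : ∀ i j, (Q i j).IsSymm) (swapQ : ∀ i j, Q i j = Q j i)
    (psdQ : ∀ x : Fin n → ℝ, (∑ i, ∑ j, (x i * x j) • Q i j).PosSemidef)
    (nullQ : ∀ i, ∑ j, e j • Q i j = 0)
    (posc : 0 < ∑ i, c i * e i) (posA : (∑ i, e i • A i).PosDef) :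
    IsHyperbolicWrt (schurPoly c A Q) e ∧
      IsSpectrahedralShadow (hypCone (schurPoly c A Q) e) :=
  have h : Data c e A Q := ⟨symA, symQ, swapQ, psdQ, nullQ, posc, posA⟩
  ⟨hyperbolic c e A Q h, shadow c e A Q h hm⟩

end Vale.Agent.Results.P256.SchurPencil


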